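import Vale.Agent.P210Y57.St
import Vale.Agent.P211W98.LC
import Vale.Agent.P210B.Scal
import Vale.Agent.P210.R2.H53.Base

/-!
# P210: the Levi-Civita connection and its curvature in a chart of the maximal atlas
-/

set_option maxSynthPendingDepth 3
set_option linter.unusedSectionVars false

open Bundle Manifold VectorField FiberBundle Filter Topology IsManifold
open scoped ContDiff

namespace Vale.Agent.P210Y57

open Vale.Agent.P211.NN (Field)
open Vale.Agent.P211Z (pull dm Md Sm inv_of_ld dm_pull pull_bracket)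
open Vale.Agent.P210.R2.H53 (chartG chris LocalRiem)

noncomputable section

variable {E : Type} [NormedAddCommGroup E] [NormedSpace ℝ E] [FiniteDimensional ℝ E]

section Coord

variable {G : E → E →L[ℝ] E →L[ℝ] ℝ} {U : Set E} {u : E}

/-- `∇_Y Z` in coordinates -/
def nab (G : E → E →L[ℝ] E →L[ℝ] ℝ) (Y Z : E → E) (p : E) : E :=
  fderiv ℝ Z p (Y p) + chris G p (Y p) (Z p)

theorem nab_deriv (hG : LocalRiem G U) (hu : u ∈ U) {Y Z : E → E} (hY : DifferentiableAt ℝ Y u)
    (hZ : ContDiffAt ℝ 2 Z u) : DifferentiableAt ℝ (nab G Y Z) u ∧ ∀ x,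
      fderiv ℝ (nab G Y Z) u x = fderiv ℝ (fderiv ℝ Z) u x (Y u) + fderiv ℝ Z u (fderiv ℝ Y u x)
        + (fderiv ℝ (chris G) u x (Y u) (Z u) + chris G u (fderiv ℝ Y u x) (Z u)
          + chris G u (Y u) (fderiv ℝ Z u x)) := by
  have h1 : DifferentiableAt ℝ (fderiv ℝ Z) u :=
    (hZ.fderiv_right (m := 1) (by norm_num)).differentiableAt (by simp)
  have h2 : DifferentiableAt ℝ Z u := hZ.differentiableAt (by simp)
  have h3 := (h1.hasFDerivAt.clm_apply hY.hasFDerivAt).add
    (((hG.hasFDerivAt_chris hu).clm_apply hY.hasFDerivAt).clm_apply h2.hasFDerivAt)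
  have h4 : HasFDerivAt (nab G Y Z) _ u := h3
  refine ⟨h4.differentiableAt, fun x => ?_⟩
  rw [h4.fderiv]
  simp only [add_apply, ContinuousLinearMap.comp_apply, ContinuousLinearMap.flip_apply,
    ContinuousLinearMap.flip_add]
  abel

theorem curv_coord (hG : LocalRiem G U) (hu : u ∈ U) {X Y Z : E → E}
    (hX : DifferentiableAt ℝ X u) (hY : DifferentiableAt ℝ Y u) (hZ : ContDiffAt ℝ 2 Z u) :
    fderiv ℝ (nab G Y Z) u (X u) + chris G u (X u) (nab G Y Z u)
      - (fderiv ℝ (nab G X Z) u (Y u) + chris G u (Y u) (nab G X Z u))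
      - (fderiv ℝ Z u (fderiv ℝ Y u (X u) - fderiv ℝ X u (Y u))
        + chris G u (fderiv ℝ Y u (X u) - fderiv ℝ X u (Y u)) (Z u))
      = P210B.Rm G u (X u) (Y u) (Z u) := by
  have hs : fderiv ℝ (fderiv ℝ Z) u (X u) (Y u) = fderiv ℝ (fderiv ℝ Z) u (Y u) (X u) :=
    (hZ.isSymmSndFDerivAt (by simp)) _ _
  rw [(nab_deriv hG hu hY hZ).2, (nab_deriv hG hu hX hZ).2, P210B.Rm, hs]
  simp only [nab, map_add, map_sub, sub_apply]
  abel

theorem md_model {V : E → E} {u : E} : Md (E := E) (M := E) V u ↔ DifferentiableAt ℝ V u := by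
  unfold Md
  rw [mdifferentiableAt_totalSpace, ← mdifferentiableAt_iff_differentiableAt]
  have h : (fun x : E => (trivializationAt E (TangentSpace 𝓘(ℝ, E)) u
      (⟨x, V x⟩ : TangentBundle 𝓘(ℝ, E) E)).2) = V := funext fun x =>
    congrArg Prod.snd (trivializationAt_model_space_apply (I := 𝓘(ℝ, E)) _ _)
  exact ⟨fun k => h ▸ k.2, fun k => ⟨mdifferentiableAt_id, h.symm ▸ k⟩⟩

theorem sum_indep {ι κ : Type} [Fintype ι] [Fintype κ] (B : E →L[ℝ] E →L[ℝ] ℝ)
    (hB : ∀ v w, B v w = B w v) {b : ι → E} {c : κ → E} (hb : ∀ v, v = ∑ i, B (b i) v • b i)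
    (hc : ∀ v, v = ∑ k, B (c k) v • c k) (β : E → E → ℝ) (h1 : ∀ w, IsLinearMap ℝ fun v => β v w)
    (h2 : ∀ v, IsLinearMap ℝ (β v)) : ∑ i, β (b i) (b i) = ∑ k, β (c k) (c k) := by
  have e1 : ∀ i, β (b i) (b i) = ∑ k, B (c k) (b i) * β (c k) (b i) := fun i => by
    have := congrArg (IsLinearMap.mk' _ (h1 (b i))) (hc (b i))
    simpa only [map_sum, map_smul, IsLinearMap.mk'_apply, smul_eq_mul] using this
  have e2 : ∀ k, β (c k) (c k) = ∑ i, B (c k) (b i) * β (c k) (b i) := fun k => by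
    have := congrArg (IsLinearMap.mk' _ (h2 (c k))) (hb (c k))
    simpa only [map_sum, map_smul, IsLinearMap.mk'_apply, smul_eq_mul, hB (b _)] using this
  rw [Finset.sum_congr rfl fun i _ => e1 i, Finset.sum_congr rfl fun k _ => e2 k, Finset.sum_comm]

end Coord

variable {M : Type} [MetricSpace M] [ChartedSpace E M] [IsManifold 𝓘(ℝ, E) ∞ M]
  {e : OpenPartialHomeomorph M E} {q : M}

/-- components in the chart `e` -/
def cp (e : OpenPartialHomeomorph M E) (q : M) : TangentSpace 𝓘(ℝ, E) q →L[ℝ] E :=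
  mfderiv 𝓘(ℝ, E) 𝓘(ℝ, E) e q

/-- the field with constant components -/
def cf (e : OpenPartialHomeomorph M E) (y : E) : Field E M := pull e (fun _ => y)

/-- a field read in the chart `e` -/
def hat (e : OpenPartialHomeomorph M E) (Y : Field E M) (u : E) : E := cp e _ (Y (e.symm u))

variable (he : e ∈ maximalAtlas 𝓘(ℝ, E) ∞ M)
include he

/-- the chart as a diffeomorphism -/
def pdf : PartialDiffeomorph 𝓘(ℝ, E) 𝓘(ℝ, E) M E ∞ where
  toPartialEquiv := e.toPartialEquiv
  open_source := e.open_source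
  open_target := e.open_target
  contMDiffOn_toFun := contMDiffOn_of_mem_maximalAtlas he
  contMDiffOn_invFun := contMDiffOn_symm_of_mem_maximalAtlas he

theorem ld (h : q ∈ e.source) : IsLocalDiffeomorphAt 𝓘(ℝ, E) 𝓘(ℝ, E) ∞ e q :=
  ⟨pdf he, h, fun _ _ => rfl⟩

theorem ld' {u : E} (h : u ∈ e.target) : IsLocalDiffeomorphAt 𝓘(ℝ, E) 𝓘(ℝ, E) ∞ e.symm u :=
  ⟨(pdf he).symm, h, fun _ _ => rfl⟩

theorem mdc : e.MDifferentiable 𝓘(ℝ, E) 𝓘(ℝ, E) :=
  ⟨(contMDiffOn_of_mem_maximalAtlas he).mdifferentiableOn (by simp),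
    (contMDiffOn_symm_of_mem_maximalAtlas he).mdifferentiableOn (by simp)⟩

theorem cp_inj (h : q ∈ e.source) {v w : TangentSpace 𝓘(ℝ, E) q} (k : cp e q v = cp e q w) :
    v = w := (inv_of_ld (ld he h)).injective k

theorem cp_pull (h : q ∈ e.source) (V : E → E) : cp e q (pull e V q) = V (e q) :=
  dm_pull (ld he h) V

theorem cp_cf (h : q ∈ e.source) (y : E) : cp e q (cf e y q) = y :=
  cp_pull he h fun _ => y

theorem cf_cp (h : q ∈ e.source) (v : TangentSpace 𝓘(ℝ, E) q) : cf e (cp e q v) q = v :=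
  cp_inj he h (cp_cf he h _)

omit he in
theorem hat_self (h : q ∈ e.source) (Y : Field E M) : hat e Y (e q) = cp e q (Y q) := by
  have : ∀ p, p = q → cp e p (Y p) = cp e q (Y q) := by rintro p rfl; rfl
  exact this _ (e.left_inv h)

theorem pull_hat (h : q ∈ e.source) (Y : Field E M) : Y =ᶠ[𝓝 q] pull e (hat e Y) := by
  filter_upwards [e.open_source.mem_nhds h] with p hp
  exact cp_inj he hp ((cp_pull he hp (hat e Y)).trans (hat_self hp Y)).symm

theorem hat_eq (h : q ∈ e.source) (Y : Field E M) : hat e Y =ᶠ[𝓝 (e q)] pull e.symm Y := by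
  filter_upwards [e.open_target.mem_nhds (e.map_source h)] with u hu
  have h1 := DFunLike.congr_fun ((mdc he).comp_symm_deriv hu) (pull e.symm Y u)
  rw [hat, ← dm_pull (ld' he hu) Y]
  exact h1

theorem md_iff (h : q ∈ e.source) (Y : Field E M) :
    Md Y q ↔ DifferentiableAt ℝ (hat e Y) (e q) := by
  refine ⟨fun k => ?_, fun k => (P211Z.Md.pull (ld he h) (md_model.2 k)).congr (pull_hat he h Y)⟩
  rw [(hat_eq he h Y).differentiableAt_iff]
  exact md_model.1 (P211Z.Md.pull (ld' he (e.map_source h)) (by rwa [e.left_inv h]))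

theorem sm_hat (h : q ∈ e.source) {Y : Field E M} (hY : Sm Y q) :
    ContDiffAt ℝ ∞ (hat e Y) (e q) :=
  ((contMDiffAt_vectorSpace_iff_contDiffAt (V := pull e.symm Y)).1
    (P211Z.Sm.pull (ld' he (e.map_source h)) (by rwa [e.left_inv h]))).congr_of_eventuallyEq
    (hat_eq he h Y)

theorem hat_cf (h : q ∈ e.source) (y : E) : hat e (cf e y) =ᶠ[𝓝 (e q)] fun _ => y := by
  filter_upwards [e.open_target.mem_nhds (e.map_source h)] with u hu
  exact cp_cf he (e.map_target hu) y

theorem md_cf (h : q ∈ e.source) (y : E) : Md (cf e y) q :=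
  (md_iff he h _).2 ((hat_cf he h y).differentiableAt_iff.2 (differentiableAt_const y))

theorem fderiv_hat_cf (h : q ∈ e.source) (y : E) : fderiv ℝ (hat e (cf e y)) (e q) = 0 := by
  rw [(hat_cf he h y).fderiv_eq]; simp

theorem cp_bracket (h : q ∈ e.source) {X Y : Field E M} (hX : Md X q) (hY : Md Y q) :
    cp e q (mlieBracket 𝓘(ℝ, E) X Y q) =
      fderiv ℝ (hat e Y) (e q) (cp e q (X q)) - fderiv ℝ (hat e X) (e q) (cp e q (Y q)) := by
  have h2 : ∀ V W : (x : E) → TangentSpace 𝓘(ℝ, E) x,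
      mlieBracket 𝓘(ℝ, E) V W = lieBracket ℝ V W := by
    intro V W
    rw [← mlieBracketWithin_univ, mlieBracketWithin_eq_lieBracketWithin]
    exact lieBracketWithin_univ
  rw [(pull_hat he h X).mlieBracket_vectorField_eq (pull_hat he h Y),
    pull_bracket (ld he h) (md_model.2 ((md_iff he h X).1 hX)) (md_model.2 ((md_iff he h Y).1 hY)),
    ← hat_self h X, ← hat_self h Y]
  exact (cp_pull he h _).trans (congrFun (h2 (hat e X) (hat e Y)) _)

theorem mv_chart (h : q ∈ e.source) {f : M → ℝ} {F : E → ℝ} (hF : DifferentiableAt ℝ F (e q))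
    (k : f =ᶠ[𝓝 q] fun p => F (e p)) (v : TangentSpace 𝓘(ℝ, E) q) :
    mvfderiv 𝓘(ℝ, E) f q v = fderiv ℝ F (e q) (cp e q v) := by
  have h1 := (hF.hasFDerivAt.hasMFDerivAt.comp q
    ((ld he h).mdifferentiableAt (by simp)).hasMFDerivAt).congr_of_eventuallyEq k
  exact congrArg (fun L : E →L[ℝ] ℝ => L v) h1.mfderiv

variable [RiemannianBundle (fun x : M => TangentSpace 𝓘(ℝ, E) x)]
  [IsContMDiffRiemannianBundle 𝓘(ℝ, E) ∞ E (fun x : M => TangentSpace 𝓘(ℝ, E) x)]
  {cov : Conn E M}

theorem lr : LocalRiem (chartG e) e.target :=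
  ⟨e.open_target, P210.R2.H53.contDiffOn_chartG he, fun z _ => P210.R2.H53.chartG_symm e z,
    fun _ hz => P210.R2.H53.chartG_pos he hz⟩

theorem inner_eq (h : q ∈ e.source) (v w : TangentSpace 𝓘(ℝ, E) q) :
    inner ℝ v w = chartG e (e q) (cp e q v) (cp e q w) := by
  have h1 : ∀ v : TangentSpace 𝓘(ℝ, E) q, P210.R2.H53.dsymm e (e q) (cp e q v) = v := fun v =>
    DFunLike.congr_fun ((mdc he).symm_comp_deriv h) v
  rw [P210.R2.H53.chartG_eq_innerAt, h1, h1, e.left_inv h]
  rfl

theorem IsLeviCivita.tors (hc : IsLeviCivita cov) {X Y : Field E M} (hX : Md X q) (hY : Md Y q) :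
    cov Y q (X q) - cov X q (Y q) = mlieBracket 𝓘(ℝ, E) X Y q :=
  (CovariantDerivative.torsion_eq_zero_iff cov).1 hc.torsion hX hY

theorem IsLeviCivita.cp_cov_cf (hc : IsLeviCivita cov) (h : q ∈ e.source) (x y : E) :
    cp e q (cov (cf e y) q (cf e x q)) = chris (chartG e) (e q) x y := by
  have hG := lr he
  have hu := e.map_source h
  let B : E → E → E := fun x y => cp e q (cov (cf e y) q (cf e x q))
  have hs : ∀ x y, B x y = B y x := by
    intro x y
    have h1 := congrArg (cp e q) (hc.tors he (md_cf he h x) (md_cf he h y))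
    rw [map_sub, cp_bracket he h (md_cf he h x) (md_cf he h y), fderiv_hat_cf he h,
      fderiv_hat_cf he h] at h1
    exact sub_eq_zero.1 (by simpa using h1)
  have hm : ∀ x y z, fderiv ℝ (chartG e) (e q) x y z =
      chartG e (e q) (B x y) z + chartG e (e q) y (B x z) := by
    intro x y z
    have h1 := hc.metric.mvfderiv_inner_eq (cf e x) (md_cf he h y) (md_cf he h z)
    rw [mv_chart he h (F := fun p => chartG e p y z)
      (hG.hasFDerivAt_apply hu y z).differentiableAt, cp_cf he h,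
      (hG.hasFDerivAt_apply hu y z).fderiv] at h1
    · simp only [inner_eq he h, cp_cf he h] at h1
      exact h1
    · filter_upwards [e.open_source.mem_nhds h] with p hp
      rw [inner_eq he hp, cp_cf he hp, cp_cf he hp]
  refine P210.R2.H53.eq_chris_of_pos (hG.pos _ hu) x y _ fun z => ?_
  change 2 * chartG e (e q) (B x y) z = _
  rw [P210.R2.H53.koszul, hm, hm, hm, hs y x, hs z x, hs z y, hG.symm _ hu y (B x z),
    hG.symm _ hu x (B y z)]
  ring

theorem IsLeviCivita.cp_cov (hc : IsLeviCivita cov) (h : q ∈ e.source) {Y : Field E M}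
    (hY : Md Y q) (v : TangentSpace 𝓘(ℝ, E) q) :
    cp e q (cov Y q v) = fderiv ℝ (hat e Y) (e q) (cp e q v) +
      chris (chartG e) (e q) (cp e q v) (cp e q (Y q)) := by
  have h1 := congrArg (cp e q) (hc.tors he (md_cf he h (cp e q v)) hY)
  rw [map_sub, cp_bracket he h (md_cf he h _) hY, fderiv_hat_cf he h, cf_cp he h] at h1
  have h2 := hc.cp_cov_cf he h (cp e q (Y q)) (cp e q v)
  rw [cf_cp he h] at h2
  rw [h2, (lr he).chris_symm (e.map_source h)] at h1
  rw [eq_add_of_sub_eq h1]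
  simp

theorem IsLeviCivita.hat_cov (hc : IsLeviCivita cov) (h : q ∈ e.source) (Y : Field E M)
    {Z : Field E M} (hZ : Sm Z q) :
    hat e (fun p => cov Z p (Y p)) =ᶠ[𝓝 (e q)] nab (chartG e) (hat e Y) (hat e Z) := by
  have h1 : ContDiffAt ℝ 1 (hat e Z) (e q) := (sm_hat he h hZ).of_le (by norm_cast)
  filter_upwards [e.open_target.mem_nhds (e.map_source h), h1.eventually (by simp)] with u hu hd
  have hp := e.map_target hu
  have k := e.right_inv hu
  have h2 : Md Z (e.symm u) := (md_iff he hp Z).2 (by rw [k]; exact hd.differentiableAt (by simp))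
  have h3 := hc.cp_cov he hp h2 (Y _)
  rw [k] at h3
  exact h3

theorem IsLeviCivita.cp_curvField (hc : IsLeviCivita cov) (h : q ∈ e.source) {X Y Z : Field E M}
    (hX : Sm X q) (hY : Sm Y q) (hZ : Sm Z q) : cp e q (curvField cov X Y Z q) =
      P210B.Rm (chartG e) (e q) (cp e q (X q)) (cp e q (Y q)) (cp e q (Z q)) := by
  have hG := lr he
  have hu := e.map_source h
  have dX := (sm_hat he h hX).differentiableAt (by simp)
  have dY := (sm_hat he h hY).differentiableAt (by simp)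
  have dZ : ContDiffAt ℝ 2 (hat e Z) (e q) := (sm_hat he h hZ).of_le (by norm_cast)
  have key := curv_coord hG hu dX dY dZ
  have h1 : ∀ {W : Field E M}, DifferentiableAt ℝ (hat e W) (e q) →
      ∀ v : TangentSpace 𝓘(ℝ, E) q, cp e q (cov (fun p => cov Z p (W p)) q v) =
        fderiv ℝ (nab (chartG e) (hat e W) (hat e Z)) (e q) (cp e q v) +
        chris (chartG e) (e q) (cp e q v) (nab (chartG e) (hat e W) (hat e Z) (e q)) := by
    intro W hW v
    have k := hc.hat_cov he h W hZ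
    rw [hc.cp_cov he h ((md_iff he h _).2 (k.differentiableAt_iff.2 (nab_deriv hG hu hW dZ).1)),
      k.fderiv_eq, ← k.eq_of_nhds, hat_self h]
  unfold curvField
  rw [map_sub, map_sub, h1 dY, h1 dX,
    hc.cp_cov he h ((md_iff he h Z).2 (dZ.differentiableAt (by simp))),
    cp_bracket he h ((md_iff he h X).2 dX) ((md_iff he h Y).2 dY)]
  rw [hat_self h, hat_self h, hat_self h] at key
  exact key

theorem IsLeviCivita.cp_Rm (hc : IsLeviCivita cov) (h : q ∈ e.source)
    (x y z : TangentSpace 𝓘(ℝ, E) q) : cp e q (Rm cov q x y z) =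
      P210B.Rm (chartG e) (e q) (cp e q x) (cp e q y) (cp e q z) := by
  have := hc.cp_curvField he h (contMDiffAt_extend (k := ∞) 𝓘(ℝ, E) E x)
    (contMDiffAt_extend (k := ∞) 𝓘(ℝ, E) E y) (contMDiffAt_extend (k := ∞) 𝓘(ℝ, E) E z)
  rwa [extend_apply_self, extend_apply_self, extend_apply_self] at this

theorem IsLeviCivita.scal_eq (hc : IsLeviCivita cov) (h : q ∈ e.source) {ι : Type} [Fintype ι]
    {b : ι → E} (hb : ∀ v, v = ∑ i, chartG e (e q) (b i) v • b i) :
    scal cov q = ∑ i, ∑ j, P210.R2.H53.secG (chartG e) (e q) (b i) (b j) := by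
  have hG := lr he
  have hu := e.map_source h
  have h1 : ∀ v, v = ∑ k, chartG e (e q) (cp e q (frame E q k)) v • cp e q (frame E q k) := by
    intro v
    have k := congrArg (cp e q) ((frame E q).sum_repr' (cf e v q))
    simp only [map_sum, map_smul, inner_eq he h, cp_cf he h] at k
    exact k.symm
  simp only [scal, ric, inner_eq he h, hc.cp_Rm he h, P210B.secG_eq hG hu]
  have h2 := fun y => sum_indep _ (hG.symm _ hu) h1 hb
    (fun u w => chartG e (e q) (P210B.Rm (chartG e) (e q) u y y) w)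
    (fun w => ⟨fun u u' => by
        simp only [P210B.Rm, map_add, map_sub, add_apply, sub_apply]; ring,
      fun r u => by
        simp only [P210B.Rm, map_add, map_sub, map_smul, add_apply, sub_apply, smul_apply,
          smul_eq_mul]; ring⟩)
    (fun u => ⟨fun w w' => map_add _ _ _, fun r w => map_smul _ _ _⟩)
  simp only [h2]
  rw [Finset.sum_comm]
  refine Finset.sum_congr rfl fun i _ => sum_indep _ (hG.symm _ hu) h1 hb
    (fun v w => chartG e (e q) (P210B.Rm (chartG e) (e q) (b i) v w) (b i))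
    (fun w => ⟨fun u u' => ?_, fun r u => ?_⟩) (fun v => ⟨fun u u' => ?_, fun r u => ?_⟩)
  all_goals
    simp only [P210B.Rm, map_add, map_sub, map_smul, add_apply, sub_apply, smul_apply, smul_eq_mul]
    ring

omit he in
theorem IsLeviCivita.scalGE (hc : IsLeviCivita cov) {σ : ℝ} (h : ∀ p, σ ≤ scal cov p) :
    P210.R2.H53.ScalGE E M σ := by
  intro e he z hz
  obtain ⟨q, hq, rfl⟩ : ∃ q ∈ e.source, e q = z := ⟨_, e.map_target hz, e.right_inv hz⟩
  have hΓ : P210.R2.H53.IsChristoffel e (e q) fun u v => chris (chartG e) (e q) u v := by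
    intro u v w
    rw [P210.R2.H53.fderiv_chartMetric he hz, P210.R2.H53.fderiv_chartMetric he hz,
      P210.R2.H53.fderiv_chartMetric he hz]
    exact (lr he).chris_spec hz u v w
  refine ⟨_, hΓ, fun b hb => ?_⟩
  simp only [P210.R2.H53.sectNum_eq he hz hΓ]
  rw [← hc.scal_eq he hq fun v => ?_]
  · exact h q
  · conv_lhs => rw [← b.sum_repr v]
    refine Finset.sum_congr rfl fun i _ => ?_
    congr 1
    conv_rhs => rw [← b.sum_repr v]
    simp only [map_sum, map_smul, P210.R2.H53.chartG_apply, hb, smul_eq_mul, mul_ite, mul_one,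
      mul_zero, Finset.sum_ite_eq, Finset.mem_univ, if_true]

end

end Vale.Agent.P210Y57
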