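import Vale.Agent.P210Y57.Geo
import Vale.Agent.P210Z57.Main

/-!
# Hopf-Rinow: complete Riemannian manifolds are geodesically complete
-/

set_option maxSynthPendingDepth 3
set_option linter.unusedSectionVars false

open Set Bundle Manifold Filter Topology IsManifold Metric
open scoped ContDiff

namespace Vale.Agent.P210Y57

open Vale.Agent.P210.R2.H53 (chartG chris LocalRiem)

variable {E : Type} [NormedAddCommGroup E] [NormedSpace ℝ E] [FiniteDimensional ℝ E]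

theorem ode_sol {G : E → E →L[ℝ] E →L[ℝ] ℝ} {U : Set E} (hG : LocalRiem G U) {y₀ : E × E}
    (hu : y₀.1 ∈ U) : ∃ ε > (0 : ℝ), ∀ᶠ y in 𝓝 y₀, ∀ t₁ : ℝ, ∃ x : ℝ → E,
      x t₁ = y.1 ∧ deriv x t₁ = y.2 ∧ ∀ t ∈ Ioo (t₁ - ε) (t₁ + ε), x t ∈ U ∧
        ContDiffAt ℝ ∞ x t ∧ deriv (deriv x) t + chris G (x t) (deriv x t) (deriv x t) = 0 := by
  have hF : ∀ y : E × E, y.1 ∈ U →
      ContDiffAt ℝ ∞ (fun y : E × E => (y.2, -chris G y.1 y.2 y.2)) y := fun y hy =>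
    contDiffAt_snd.prodMk (((((hG.contDiffOn_chris.contDiffAt (hG.isOpen.mem_nhds hy)).comp y
      contDiffAt_fst).clm_apply contDiffAt_snd).clm_apply contDiffAt_snd).neg)
  obtain ⟨ε, hε, a, r, L, K, hr, hpl⟩ :=
    IsPicardLindelof.of_contDiffAt_one ((hF y₀ hu).of_le (by norm_cast))
  obtain ⟨α, h1, h2⟩ := (hpl 0).exists_forall_mem_closedBall_eq_hasDerivWithinAt_continuousOn
  have hn : closedBall y₀ r ×ˢ Icc (0 - ε) (0 + ε) ∈ 𝓝 (y₀, (0 : ℝ)) :=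
    prod_mem_nhds (closedBall_mem_nhds _ hr) (Icc_mem_nhds (by linarith) (by linarith))
  have h3 : ∀ᶠ p in 𝓝 (y₀, (0 : ℝ)), (α p).1 ∈ U := by
    refine (continuousAt_fst.comp (h2.continuousAt hn)).eventually (hG.isOpen.mem_nhds ?_)
    have := (h1 y₀ (mem_closedBall_self r.2)).1
    simp only [Function.comp] at this ⊢
    rwa [this]
  rw [nhds_prod_eq, eventually_prod_iff] at h3
  obtain ⟨pa, ha, pb, hb, h3⟩ := h3
  obtain ⟨δ, hδ, hb⟩ := Metric.eventually_nhds_iff.1 hb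
  refine ⟨min ε δ, lt_min hε hδ, ?_⟩
  filter_upwards [ha, closedBall_mem_nhds y₀ hr] with y k1 k2 t₁
  have hm1 := min_le_left ε δ
  have hm2 := min_le_right ε δ
  have k3 : ∀ t ∈ Ioo (t₁ - min ε δ) (t₁ + min ε δ), (α (y, t - t₁)).1 ∈ U := fun t ht =>
    h3 k1 (hb (by rw [Real.dist_eq, abs_lt]; constructor <;> linarith [ht.1, ht.2]))
  have k4 : ∀ t ∈ Ioo (t₁ - min ε δ) (t₁ + min ε δ), HasDerivAt (fun s => α (y, s - t₁))
      ((α (y, t - t₁)).2, -chris G (α (y, t - t₁)).1 (α (y, t - t₁)).2 (α (y, t - t₁)).2) t :=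
    fun t ht => (((h1 y k2).2 (t - t₁) ⟨by linarith [ht.1], by linarith [ht.2]⟩).hasDerivAt
      (Icc_mem_nhds (by linarith [ht.1]) (by linarith [ht.2]))).comp_sub_const t t₁
  have k5 := P216Z57.boot isOpen_Ioo k4 fun t ht => hF _ (k3 t ht)
  have k6 : ∀ t ∈ Ioo (t₁ - min ε δ) (t₁ + min ε δ),
      deriv (fun s => (α (y, s - t₁)).1) t = (α (y, t - t₁)).2 := fun t ht =>
    ((ContinuousLinearMap.fst ℝ E E).hasFDerivAt.comp_hasDerivAt t (k4 t ht)).deriv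
  have k0 : α (y, t₁ - t₁) = y := by rw [sub_self]; exact (h1 y k2).1
  refine ⟨fun s => (α (y, s - t₁)).1, congrArg Prod.fst k0, ?_, fun t ht =>
    ⟨k3 t ht, (k5.contDiffAt (Ioo_mem_nhds ht.1 ht.2)).fst, ?_⟩⟩
  · rw [k6 _ ⟨by linarith [lt_min hε hδ], by linarith [lt_min hε hδ]⟩, k0]
  · have k7 : deriv (fun s => (α (y, s - t₁)).1) =ᶠ[𝓝 t] fun s => (α (y, s - t₁)).2 :=
      mem_of_superset (Ioo_mem_nhds ht.1 ht.2) k6
    have k8 : deriv (fun s => (α (y, s - t₁)).2) t =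
        -chris G (α (y, t - t₁)).1 (α (y, t - t₁)).2 (α (y, t - t₁)).2 :=
      ((ContinuousLinearMap.snd ℝ E E).hasFDerivAt.comp_hasDerivAt t (k4 t ht)).deriv
    rw [k7.deriv_eq, k8, k6 t ht, neg_add_cancel]

theorem energy_coord {G : E → E →L[ℝ] E →L[ℝ] ℝ} {U : Set E} {x : ℝ → E} {t : ℝ}
    (hG : LocalRiem G U) (hu : x t ∈ U) (h2 : ContDiffAt ℝ ∞ x t)
    (h0 : deriv (deriv x) t + chris G (x t) (deriv x t) (deriv x t) = 0) :
    HasDerivAt (fun s => G (x s) (deriv x s) (deriv x s)) 0 t := by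
  have h3 := (h2.differentiableAt (by simp)).hasDerivAt
  have h4 := ((P234Z57.deriv_smooth h2).differentiableAt one_ne_zero).hasDerivAt
  have h5 : HasDerivAt (fun s => G (x s)) (fderiv ℝ G (x t) (deriv x t)) t :=
    (hG.differentiableAt hu).hasFDerivAt.comp_hasDerivAt t h3
  refine ((h5.clm_apply h4).clm_apply h4).congr_deriv ?_
  simp only [add_apply, hG.fderiv_eq hu, eq_neg_of_add_eq_zero_left h0, map_neg, neg_apply]
  ring

variable {M : Type} [MetricSpace M] [ChartedSpace E M] [IsManifold 𝓘(ℝ, E) ∞ M]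
  [RiemannianBundle (fun x : M => TangentSpace 𝓘(ℝ, E) x)]
  [IsContMDiffRiemannianBundle 𝓘(ℝ, E) ∞ E (fun x : M => TangentSpace 𝓘(ℝ, E) x)]
  {cov : Conn E M} {e : OpenPartialHomeomorph M E} {c c₁ c₂ : ℝ → M} {t a b : ℝ}

/-- the geodesic equation at time `t` -/
def Gd (cov : Conn E M) (c : ℝ → M) (t : ℝ) : Prop :=
  ContMDiffAt 𝓘(ℝ, ℝ) 𝓘(ℝ, E) ∞ c t ∧ acc cov c t = 0

theorem ev_md (hs : ContMDiffAt 𝓘(ℝ, ℝ) 𝓘(ℝ, E) ∞ c t) :
    ∀ᶠ s in 𝓝 t, MDifferentiableAt 𝓘(ℝ, ℝ) 𝓘(ℝ, E) c s :=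
  ((contMDiffAt_iff_contMDiffAt_nhds (n := 1) (by simp)).1 (hs.of_le (by norm_cast))).mono
    fun _ k => k.mdifferentiableAt one_ne_zero

theorem tb_ext (he : e ∈ maximalAtlas 𝓘(ℝ, E) ∞ M) {v w : TangentBundle 𝓘(ℝ, E) M}
    (h : v.1 ∈ e.source) (k1 : v.1 = w.1) (k2 : cp e v.1 v.2 = cp e w.1 w.2) : v = w := by
  obtain ⟨q, v⟩ := v
  obtain ⟨q', w⟩ := w
  obtain rfl : q = q' := k1
  obtain rfl : v = w := cp_inj he (q := q) h k2
  rfl

variable (hc : IsLeviCivita cov)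
include hc

theorem acc_iff (he : e ∈ maximalAtlas 𝓘(ℝ, E) ∞ M) (h : c t ∈ e.source)
    (hs : ContMDiffAt 𝓘(ℝ, ℝ) 𝓘(ℝ, E) ∞ c t) : acc cov c t = 0 ↔ ac e c t = 0 := by
  have he' := chart_mem_maximalAtlas (I := 𝓘(ℝ, E)) (n := ∞) (c t)
  have h' := mem_chart_source E (c t)
  have h1 := hc.cp_acc (ev_md hs)
  refine ⟨fun k => ?_, fun k => cp_inj he' h' ?_⟩
  · rw [k, map_zero] at h1
    by_contra h2
    exact ((lr he).pos _ (e.map_source h) _ h2).ne' (hc.ac_zero he' he h' h hs h1.symm _)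
  · rw [h1, map_zero]
    by_contra h2
    exact ((lr he').pos _ ((chartAt E (c t)).map_source h') _ h2).ne'
      (hc.ac_zero he he' h h' hs k _)

theorem Gd.congr (h : Gd cov c₁ t) (k : c₂ =ᶠ[𝓝 t] c₁) : Gd cov c₂ t := by
  have he := chart_mem_maximalAtlas (I := 𝓘(ℝ, E)) (n := ∞) (c₁ t)
  have h1 := (acc_iff hc he (mem_chart_source E _) h.1).1 h.2
  have hs := h.1.congr_of_eventuallyEq k
  refine ⟨hs, (acc_iff hc he (k.eq_of_nhds ▸ mem_chart_source E _) hs).2 ?_⟩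
  have k1 : (fun s => chartAt E (c₁ t) (c₂ s)) =ᶠ[𝓝 t] fun s => chartAt E (c₁ t) (c₁ s) :=
    k.fun_comp _
  rw [ac, k1.deriv.deriv_eq, k1.deriv_eq, k.eq_of_nhds]
  exact h1

theorem Gd.neg (h : Gd cov c (-t)) : Gd cov (fun s => c (-s)) t := by
  have he := chart_mem_maximalAtlas (I := 𝓘(ℝ, E)) (n := ∞) (c (-t))
  have h1 := (acc_iff hc he (mem_chart_source E _) h.1).1 h.2
  have hs : ContMDiffAt 𝓘(ℝ, ℝ) 𝓘(ℝ, E) ∞ (fun s => c (-s)) t :=
    ContMDiffAt.comp (g := c) t h.1 contDiffAt_id.neg.contMDiffAt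
  refine ⟨hs, (acc_iff hc (c := fun s => c (-s)) he (mem_chart_source E _) hs).2 ?_⟩
  have k1 : deriv (fun s => chartAt E (c (-t)) (c (-s))) =
      fun s => -deriv (fun s => chartAt E (c (-t)) (c s)) (-s) :=
    funext fun s => deriv_comp_neg (fun s => chartAt E (c (-t)) (c s)) s
  rw [ac, k1, deriv.fun_neg, deriv_comp_neg (deriv fun s => chartAt E (c (-t)) (c s)), neg_neg]
  simp only [map_neg, neg_apply, neg_neg]
  exact h1

theorem sol (he : e ∈ maximalAtlas 𝓘(ℝ, E) ∞ M) {y₀ : E × E} (hu : y₀.1 ∈ e.target) :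
    ∃ ε > (0 : ℝ), ∀ᶠ y in 𝓝 y₀, ∀ v : TangentBundle 𝓘(ℝ, E) M, v.1 ∈ e.source →
      (e v.1, cp e v.1 v.2) = y → ∀ t₁ : ℝ, ∃ c : ℝ → M,
        (∀ t ∈ Ioo (t₁ - ε) (t₁ + ε), Gd cov c t) ∧ v = ⟨c t₁, vel E c t₁⟩ := by
  obtain ⟨ε, hε, h⟩ := ode_sol (lr he) hu
  refine ⟨ε, hε, h.mono fun y hy v hv hy' t₁ => ?_⟩
  subst hy'
  obtain ⟨x, h1, h2, h3⟩ := hy t₁
  have h4 : ∀ t ∈ Ioo (t₁ - ε) (t₁ + ε), (fun s => e (e.symm (x s))) =ᶠ[𝓝 t] x := fun t ht =>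
    mem_of_superset (Ioo_mem_nhds ht.1 ht.2) fun s hs => e.right_inv (h3 s hs).1
  have h5 : ∀ t ∈ Ioo (t₁ - ε) (t₁ + ε),
      ContMDiffAt 𝓘(ℝ, ℝ) 𝓘(ℝ, E) ∞ (fun s => e.symm (x s)) t := fun t ht =>
    (ld' he (h3 t ht).1).contMDiffAt.comp t (h3 t ht).2.1.contMDiffAt
  have h0 : t₁ ∈ Ioo (t₁ - ε) (t₁ + ε) := ⟨by linarith, by linarith⟩
  refine ⟨fun s => e.symm (x s), fun t ht => ⟨h5 t ht,
    (acc_iff hc he (e.map_target (h3 t ht).1) (h5 t ht)).2 ?_⟩, tb_ext he hv ?_ ?_⟩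
  · rw [ac, (h4 t ht).deriv.deriv_eq, (h4 t ht).deriv_eq, e.right_inv (h3 t ht).1]
    exact (h3 t ht).2.2
  · change v.1 = e.symm (x t₁)
    rw [h1, e.left_inv hv]
  · refine Eq.trans ?_ (cp_vel he (c := fun s => e.symm (x s)) (e.map_target (h3 _ h0).1)
      ((h5 _ h0).mdifferentiableAt (by simp))).symm
    rw [(h4 _ h0).deriv_eq, h2]

theorem Gd.energy (h : Gd cov c t) :
    HasDerivAt (fun s => inner ℝ (vel E c s) (vel E c s)) 0 t := by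
  have he := chart_mem_maximalAtlas (I := 𝓘(ℝ, E)) (n := ∞) (c t)
  have h' := mem_chart_source E (c t)
  refine (energy_coord (x := fun s => chartAt E (c t) (c s)) (lr he)
    ((chartAt E (c t)).map_source h') ((ld he h').contMDiffAt.comp t h.1).contDiffAt
    ((acc_iff hc he h' h.1).1 h.2)).congr_of_eventuallyEq ?_
  filter_upwards [ev_md h.1, h.1.continuousAt.eventually
    ((chartAt E (c t)).open_source.mem_nhds h')] with s k1 k2
  rw [inner_eq he k2, cp_vel he k2 k1]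

variable [IsRiemannianManifold 𝓘(ℝ, E) M]

theorem Gd.geoAt (h : Gd cov c t) : P210Z57.GeoAt E c t := by
  refine ⟨h.1.continuousAt, fun p ht => ?_⟩
  have hz : P234Z57.crd E p c t ∈ P216.Chart.dom E p :=
    P216.Chart.phi_mem_dom p (by rwa [extChartAt_source])
  refine ⟨hz, ((contMDiffAt_extChartAt' ht).comp t h.1).contDiffAt,
    fun w => (P234Z57.eq_iff p hz _ _ w).1 ?_⟩
  have he := chart_mem_maximalAtlas (I := 𝓘(ℝ, E)) (n := ∞) p
  have hu := (chartAt E p).map_source ht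
  have h1 := congrArg (fun u => chartG (chartAt E p) (chartAt E p (c t)) u w)
    ((acc_iff hc he ht h.1).1 h.2)
  have h2 := (lr he).chris_spec hu (deriv (fun s => chartAt E p (c s)) t)
    (deriv (fun s => chartAt E p (c s)) t) w
  rw [P210.R2.H53.koszul, ← P210.R2.H53.fderiv_chartMetric he hu,
    ← P210.R2.H53.fderiv_chartMetric he hu] at h2
  simp only [map_zero, zero_apply] at h1
  rw [ac, map_add, add_apply, eq_div_of_mul_eq two_ne_zero ((mul_comm _ _).trans h2)] at h1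
  exact h1

theorem uniq {t₁ : ℝ} (h₁ : ∀ t ∈ Ioo a b, Gd cov c₁ t) (h₂ : ∀ t ∈ Ioo a b, Gd cov c₂ t)
    (ht₁ : t₁ ∈ Ioo a b)
    (k : (⟨c₁ t₁, vel E c₁ t₁⟩ : TangentBundle 𝓘(ℝ, E) M) = ⟨c₂ t₁, vel E c₂ t₁⟩) :
    EqOn c₁ c₂ (Ioo a b) :=
  P210Z57.eqOn_of (fun t ht => (h₁ t ht).geoAt hc) (fun t ht => (h₂ t ht).geoAt hc) ht₁ k

omit hc in
theorem tb_congr (k : c₁ =ᶠ[𝓝 t] c₂) :
    (⟨c₁ t, vel E c₁ t⟩ : TangentBundle 𝓘(ℝ, E) M) = ⟨c₂ t, vel E c₂ t⟩ :=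
  TotalSpace.ext k.eq_of_nhds (heq_of_eq (DFunLike.congr_fun
    (k.mfderiv_eq (I := 𝓘(ℝ, ℝ)) (I' := 𝓘(ℝ, E))) (1 : ℝ)))

variable [CompleteSpace M]

theorem ext_right (hab : a < b) (h : ∀ t ∈ Ioo a b, Gd cov c t) :
    ∃ b' > b, ∃ c' : ℝ → M, (∀ t ∈ Ioo a b', Gd cov c' t) ∧ EqOn c c' (Ioo a b) := by
  have := P210.R2.H53.properSpace_riemannian E M
  have := P210Z57.contRiem E M
  obtain ⟨t₀, ht₀⟩ := nonempty_Ioo.2 hab
  have h1 : ∀ t ∈ Ioo a b, ‖vel E c t‖ = ‖vel E c t₀‖ := fun t ht => by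
    have := isOpen_Ioo.is_const_of_deriv_eq_zero isPreconnected_Ioo
      (fun s hs => ((h s hs).energy hc).differentiableAt.differentiableWithinAt)
      (fun s hs => ((h s hs).energy hc).deriv) ht ht₀
    rw [real_inner_self_eq_norm_sq, real_inner_self_eq_norm_sq] at this
    exact (sq_eq_sq₀ (norm_nonneg _) (norm_nonneg _)).1 this
  have h2 : ∀ t ∈ Ioo t₀ b, c t ∈ closedBall (c t₀) (‖vel E c t₀‖ * (b - t₀)) := fun t ht => by
    have k1 : Icc t₀ t ⊆ Ioo a b := fun s hs => ⟨ht₀.1.trans_le hs.1, hs.2.trans_lt ht.2⟩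
    have k2 := riemannianEDist_le_pathELength (I := 𝓘(ℝ, E)) (γ := c)
      (fun s hs => ((h s (k1 hs)).1.of_le (by norm_cast)).contMDiffWithinAt) rfl rfl ht.1.le
    rw [pathELength_eq_lintegral_mfderiv_Icc, MeasureTheory.setLIntegral_congr_fun measurableSet_Icc
      (g := fun _ => ENNReal.ofReal ‖vel E c t₀‖) (fun s hs => by
        rw [← h1 s (k1 hs), ofReal_norm]; rfl), MeasureTheory.setLIntegral_const,
      Real.volume_Icc, ← ENNReal.ofReal_mul (norm_nonneg _),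
      ← IsRiemannianManifold.out (I := 𝓘(ℝ, E)), edist_le_ofReal
        (mul_nonneg (norm_nonneg _) (sub_nonneg.2 ht.1.le))] at k2
    rw [mem_closedBall']
    exact k2.trans (mul_le_mul_of_nonneg_left (by linarith [ht.2]) (norm_nonneg _))
  obtain ⟨F, hF⟩ := Ultrafilter.exists_le (𝓝[<] b)
  have h3 : ∀ᶠ t in F, t ∈ Ioo t₀ b := hF (Ioo_mem_nhdsLT ht₀.2)
  obtain ⟨q, -, hq⟩ := (isCompact_closedBall _ _).ultrafilter_le_nhds (F.map c)
    (le_principal_iff.2 (h3.mono h2))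
  have hq' : Tendsto c F (𝓝 q) := hq
  have he := chart_mem_maximalAtlas (I := 𝓘(ℝ, E)) (n := ∞) q
  have h4 : ∀ᶠ t in F, c t ∈ (chartAt E q).source := hq' (chart_source_mem_nhds E q)
  obtain ⟨C, hC, h5⟩ := eventually_norm_trivializationAt_lt E
    (fun x : M => TangentSpace 𝓘(ℝ, E) x) q
  have : ProperSpace E := FiniteDimensional.proper ℝ E
  obtain ⟨v, -, hv⟩ := (isCompact_closedBall (0 : E) (C * ‖vel E c t₀‖)).ultrafilter_le_nhds
    (F.map fun t => cp (chartAt E q) (c t) (vel E c t)) (le_principal_iff.2 (mem_map.2 (by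
      filter_upwards [h3, h4, hq'.eventually h5] with t k1 k2 k3
      have k4 := ((trivializationAt E (TangentSpace 𝓘(ℝ, E)) q).continuousLinearMapAt ℝ
        (c t)).le_opNorm (vel E c t)
      rw [Trivialization.continuousLinearMapAt_apply, Trivialization.coe_linearMapAt_of_mem _ k2,
        h1 t ⟨ht₀.1.trans k1.1, k1.2⟩] at k4
      rw [mem_preimage, mem_closedBall_zero_iff, ← triv_eq k2]
      exact k4.trans (mul_le_mul_of_nonneg_right (le_of_lt k3) (norm_nonneg _)))))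
  obtain ⟨ε, hε, h6⟩ := sol hc he (y₀ := (chartAt E q q, v)) (mem_chart_target E q)
  have h7 : Tendsto (fun t => (chartAt E q (c t), cp (chartAt E q) (c t) (vel E c t))) F
      (𝓝 (chartAt E q q, v)) :=
    (((chartAt E q).continuousAt (mem_chart_source E q)).tendsto.comp hq').prodMk_nhds hv
  obtain ⟨t₁, ⟨⟨k1, k2⟩, k3⟩, k4⟩ := (((h3.and h4).and (h7 h6)).and
    (hF (Ioo_mem_nhdsLT (show b - ε < b by linarith)))).exists
  obtain ⟨c₂, k5, k6⟩ := k3 ⟨c t₁, vel E c t₁⟩ k2 rfl t₁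
  have k7 : EqOn c c₂ (Ioo (max a (t₁ - ε)) b) :=
    uniq hc (fun t ht => h t ⟨(le_max_left _ _).trans_lt ht.1, ht.2⟩)
      (fun t ht => k5 t ⟨(le_max_right _ _).trans_lt ht.1, by linarith [ht.2, k4.1]⟩)
      ⟨max_lt (ht₀.1.trans k1.1) (by linarith), k1.2⟩ k6
  refine ⟨t₁ + ε, by linarith [k4.1], fun s => if s < b then c s else c₂ s, fun t ht => ?_,
    fun t ht => (if_pos ht.2).symm⟩
  by_cases htb : t < b
  · exact (h t ⟨ht.1, htb⟩).congr hc (mem_of_superset (Iio_mem_nhds htb) fun s hs => if_pos hs)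
  · refine (k5 t ⟨by linarith [k1.2, not_lt.1 htb], ht.2⟩).congr hc (mem_of_superset
      (Ioi_mem_nhds (show max a (t₁ - ε) < t from max_lt ht.1 (by linarith [k1.2, not_lt.1 htb])))
      fun s hs => ?_)
    by_cases hsb : s < b
    · exact (if_pos hsb).trans (k7 ⟨hs, hsb⟩)
    · exact if_neg hsb

theorem ray (hab : a < b) (h : ∀ t ∈ Ioo a b, Gd cov c t) :
    ∃ c' : ℝ → M, (∀ t > a, Gd cov c' t) ∧ EqOn c c' (Ioo a b) := by
  let P : ℝ → (ℝ → M) → Prop := fun T c' =>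
    b ≤ T ∧ (∀ t ∈ Ioo a T, Gd cov c' t) ∧ EqOn c c' (Ioo a b)
  obtain ⟨t₀, ht₀⟩ := nonempty_Ioo.2 hab
  have h1 : ∀ T c₁ T' c₂, P T c₁ → P T' c₂ → EqOn c₁ c₂ (Ioo a (min T T')) :=
    fun T c₁ T' c₂ k1 k2 => uniq hc (fun t ht => k1.2.1 t ⟨ht.1, ht.2.trans_le (min_le_left _ _)⟩)
      (fun t ht => k2.2.1 t ⟨ht.1, ht.2.trans_le (min_le_right _ _)⟩)
      ⟨ht₀.1, ht₀.2.trans_le (le_min k1.1 k2.1)⟩ (tb_congr (mem_of_superset
        (Ioo_mem_nhds ht₀.1 ht₀.2) fun s hs => (k1.2.2 hs).symm.trans (k2.2.2 hs)))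
  have h2 : ∀ t, ∃ x : M, ∀ T c', P T c' → t ∈ Ioo a T → x = c' t := fun t => by
    by_cases k : ∃ T c', P T c' ∧ t ∈ Ioo a T
    · obtain ⟨T, c', k1, k2⟩ := k
      exact ⟨c' t, fun T' c₂ k3 k4 => h1 _ _ _ _ k1 k3 ⟨k2.1, lt_min k2.2 k4.2⟩⟩
    · exact ⟨c t, fun T c' k1 k2 => (k ⟨T, c', k1, k2⟩).elim⟩
  choose g hg using h2
  have h0 : P b c := ⟨le_rfl, h, fun _ _ => rfl⟩
  have h3 : ∀ T c', P T c' → ∀ t ∈ Ioo a T, Gd cov g t := fun T c' k t ht =>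
    (k.2.1 t ht).congr hc (mem_of_superset (Ioo_mem_nhds ht.1 ht.2) fun s hs => hg s T c' k hs)
  have h4 : EqOn c g (Ioo a b) := fun t ht => (hg t b c h0 ht).symm
  refine ⟨g, fun t ht => ?_, h4⟩
  by_contra hcon
  have hb : BddAbove {T | ∃ c', P T c'} := ⟨t, fun T ⟨c', k⟩ =>
    not_lt.1 fun k' => hcon (h3 T c' k t ⟨ht, k'⟩)⟩
  have h5 := le_csSup hb ⟨c, h0⟩
  obtain ⟨b', hb', c', k1, k2⟩ := ext_right hc (c := g) (hab.trans_le h5) fun s hs => by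
    obtain ⟨T, ⟨c', k⟩, k'⟩ := exists_lt_of_lt_csSup (s := {T | ∃ c', P T c'}) ⟨b, c, h0⟩ hs.2
    exact h3 T c' k s ⟨hs.1, k'⟩
  exact absurd (le_csSup hb ⟨c', h5.trans hb'.le, k1, fun s hs =>
    (h4 hs).trans (k2 ⟨hs.1, hs.2.trans_le h5⟩)⟩) (not_le.2 hb')

theorem geodComplete : GeodComplete cov := by
  intro v
  obtain ⟨ε, hε, h⟩ := sol hc (chart_mem_maximalAtlas (I := 𝓘(ℝ, E)) (n := ∞) v.1)
    (y₀ := (chartAt E v.1 v.1, cp (chartAt E v.1) v.1 v.2)) (mem_chart_target E v.1)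
  obtain ⟨c, h1, h2⟩ := h.self_of_nhds v (mem_chart_source E v.1) rfl 0
  rw [zero_sub, zero_add] at h1
  have hab : -ε < ε := by linarith
  obtain ⟨c₁, k1, k2⟩ := ray hc hab h1
  obtain ⟨c₂, k3, k4⟩ := ray hc (c := fun s => c (-s)) hab fun t ht =>
    (h1 (-t) ⟨by linarith [ht.2], by linarith [ht.1]⟩).neg hc
  have k5 : ∀ t, Gd cov (fun s => if s < ε then c₂ (-s) else c₁ s) t := fun t => by
    by_cases ht : t < ε
    · exact ((k3 (-t) (by linarith)).neg hc).congr hc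
        (mem_of_superset (Iio_mem_nhds ht) fun s hs => if_pos hs)
    · refine (k1 t (by linarith)).congr hc (mem_of_superset
        (Ioi_mem_nhds (show -ε < t by linarith)) fun s hs => ?_)
      by_cases hs' : s < ε
      · refine (if_pos hs').trans
          ((k4 (x := -s) ⟨by linarith, by linarith [mem_Ioi.1 hs]⟩).symm.trans ?_)
        simp only [neg_neg]
        exact k2 ⟨hs, hs'⟩
      · exact if_neg hs'
  refine ⟨_, ⟨fun t => (k5 t).1, fun t => (k5 t).2⟩, h2.trans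
    (tb_congr (c₂ := fun s => if s < ε then c₂ (-s) else c₁ s) ?_)⟩
  filter_upwards [Ioo_mem_nhds (show -ε < 0 by linarith) hε] with s hs
  rw [if_pos hs.2, ← k4 (x := -s) ⟨by linarith [hs.2], by linarith [hs.1]⟩]
  simp only [neg_neg]

end Vale.Agent.P210Y57
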