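import Vale.Agent.P210Y57.Chart
import Vale.Agent.P234Z57.Defs

/-!
# P210: the covariant acceleration in a chart
-/

set_option maxSynthPendingDepth 3
set_option linter.unusedSectionVars false

open Bundle Manifold VectorField FiberBundle Filter Topology IsManifold
open scoped ContDiff

namespace Vale.Agent.P210Y57

open Vale.Agent.P211.NN (Field)
open Vale.Agent.P211Z (pull dm Md Sm)
open Vale.Agent.P210.R2.H53 (chartG chris LocalRiem)

variable {E : Type} [NormedAddCommGroup E] [NormedSpace ℝ E] [FiniteDimensional ℝ E]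
  {M : Type} [MetricSpace M] [ChartedSpace E M] [IsManifold 𝓘(ℝ, E) ∞ M]
  {e : OpenPartialHomeomorph M E} {c : ℝ → M} {t : ℝ}

theorem pair_coord {G : E → E →L[ℝ] E →L[ℝ] ℝ} {U : Set E} {x : ℝ → E} {Y : E → E}
    (hG : LocalRiem G U) (hu : x t ∈ U) (h2 : ContDiffAt ℝ ∞ x t)
    (hY : DifferentiableAt ℝ Y (x t)) : HasDerivAt (fun s => G (x s) (deriv x s) (Y (x s)))
      (G (x t) (deriv (deriv x) t + chris G (x t) (deriv x t) (deriv x t)) (Y (x t)) +
        G (x t) (deriv x t) (fderiv ℝ Y (x t) (deriv x t) +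
          chris G (x t) (deriv x t) (Y (x t)))) t := by
  have h3 := (h2.differentiableAt (by simp)).hasDerivAt
  have h4 : HasDerivAt (deriv x) (deriv (deriv x) t) t :=
    (((h2.fderiv_right (m := 1) (by norm_cast)).clm_apply
      (contDiffAt_const (c := (1 : ℝ)))).differentiableAt one_ne_zero).hasDerivAt
  have h5 : HasDerivAt (fun s => G (x s)) (fderiv ℝ G (x t) (deriv x t)) t :=
    (hG.differentiableAt hu).hasFDerivAt.comp_hasDerivAt t h3
  have h6 : HasDerivAt (fun s => Y (x s)) (fderiv ℝ Y (x t) (deriv x t)) t :=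
    hY.hasFDerivAt.comp_hasDerivAt t h3
  refine ((h5.clm_apply h4).clm_apply h6).congr_deriv ?_
  simp only [add_apply, hG.fderiv_eq hu, map_add]
  ring

theorem cp_vel (he : e ∈ maximalAtlas 𝓘(ℝ, E) ∞ M) (h : c t ∈ e.source)
    (hc : MDifferentiableAt 𝓘(ℝ, ℝ) 𝓘(ℝ, E) c t) :
    cp e (c t) (vel E c t) = deriv (fun s => e (c s)) t := by
  have h1 := mfderiv_comp t ((ld he h).mdifferentiableAt (by simp)) hc
  rw [mfderiv_eq_fderiv] at h1
  exact (DFunLike.congr_fun h1 (1 : ℝ)).symm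

theorem triv_eq {a q : M} (h : q ∈ (chartAt E a).source) (v : TangentSpace 𝓘(ℝ, E) q) :
    (trivializationAt E (TangentSpace 𝓘(ℝ, E)) a ⟨q, v⟩).2 = cp (chartAt E a) q v := by
  have h1 := TangentBundle.continuousLinearMapAt_trivializationAt (I := 𝓘(ℝ, E)) (x₀ := a) h
  have h2 := congrArg (fun L : E →L[ℝ] E => L v) h1
  have h3 : (trivializationAt E (TangentSpace 𝓘(ℝ, E)) a).continuousLinearMapAt ℝ q v =
      (trivializationAt E (TangentSpace 𝓘(ℝ, E)) a ⟨q, v⟩).2 := by
    rw [Trivialization.continuousLinearMapAt_apply, Trivialization.coe_linearMapAt_of_mem _ h]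
  exact h3.symm.trans h2

theorem cp_symm {a q : M} (h : q ∈ (chartAt E a).source) (y : E) :
    cp (chartAt E a) q ((trivializationAt E (TangentSpace 𝓘(ℝ, E)) a).symm q y) = y := by
  rw [← triv_eq h, Trivialization.apply_mk_symm _ h]

variable [RiemannianBundle (fun x : M => TangentSpace 𝓘(ℝ, E) x)]
  [IsContMDiffRiemannianBundle 𝓘(ℝ, E) ∞ E (fun x : M => TangentSpace 𝓘(ℝ, E) x)]
  {cov : Conn E M}

/-- the acceleration in the chart `e` -/
noncomputable def ac (e : OpenPartialHomeomorph M E) (c : ℝ → M) (t : ℝ) : E :=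
  deriv (deriv fun s => e (c s)) t +
    chris (chartG e) (e (c t)) (deriv (fun s => e (c s)) t) (deriv (fun s => e (c s)) t)

theorem IsLeviCivita.cp_acc (hc : IsLeviCivita cov) (hs : ∀ᶠ s in 𝓝 t,
    MDifferentiableAt 𝓘(ℝ, ℝ) 𝓘(ℝ, E) c s) :
    cp (chartAt E (c t)) (c t) (acc cov c t) = ac (chartAt E (c t)) c t := by
  have he := chart_mem_maximalAtlas (I := 𝓘(ℝ, E)) (n := ∞) (c t)
  have h := mem_chart_source E (c t)
  have h1 : (fun s => (trivializationAt E (TangentSpace 𝓘(ℝ, E)) (c t) ⟨c s, vel E c s⟩).2)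
      =ᶠ[𝓝 t] deriv fun s => chartAt E (c t) (c s) := by
    filter_upwards [hs, hs.self_of_nhds.continuousAt.eventually
      ((chartAt E (c t)).open_source.mem_nhds h)] with s k1 k2
    rw [triv_eq k2, cp_vel he k2 k1]
  have h2 : hat (chartAt E (c t)) (extend E (vel E c t)) =ᶠ[𝓝 (chartAt E (c t) (c t))]
      fun _ => (trivializationAt E (TangentSpace 𝓘(ℝ, E)) (c t) ⟨c t, vel E c t⟩).2 := by
    filter_upwards [(chartAt E (c t)).open_target.mem_nhds ((chartAt E (c t)).map_source h)]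
      with u hu
    exact cp_symm ((chartAt E (c t)).map_target hu) _
  rw [acc, map_add, cp_symm h, h1.deriv_eq, hc.cp_cov he h (mdifferentiableAt_extend ..),
    h2.fderiv_eq, extend_apply_self, cp_vel he h hs.self_of_nhds]
  simp [ac]

theorem IsLeviCivita.pair (hc : IsLeviCivita cov) (he : e ∈ maximalAtlas 𝓘(ℝ, E) ∞ M)
    (h : c t ∈ e.source) (hs : ContMDiffAt 𝓘(ℝ, ℝ) 𝓘(ℝ, E) ∞ c t) {Y : Field E M}
    (hY : Md Y (c t)) : HasDerivAt (fun s => inner ℝ (vel E c s) (Y (c s)))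
      (chartG e (e (c t)) (ac e c t) (cp e (c t) (Y (c t))) +
        inner ℝ (vel E c t) (cov Y (c t) (vel E c t))) t := by
  have hG := lr he
  have hu := e.map_source h
  have h0 : ∀ᶠ s in 𝓝 t, MDifferentiableAt 𝓘(ℝ, ℝ) 𝓘(ℝ, E) c s :=
    ((contMDiffAt_iff_contMDiffAt_nhds (n := 1) (by simp)).1 (hs.of_le (by norm_cast))).mono
      fun s k => k.mdifferentiableAt one_ne_zero
  have h2 : ContDiffAt ℝ ∞ (fun s => e (c s)) t := ((ld he h).contMDiffAt.comp t hs).contDiffAt
  have h5 := pair_coord (x := fun s => e (c s)) hG hu h2 ((md_iff he h Y).1 hY)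
  have h6 : (fun s => inner ℝ (vel E c s) (Y (c s))) =ᶠ[𝓝 t]
      fun s => chartG e (e (c s)) (deriv (fun s => e (c s)) s) (hat e Y (e (c s))) := by
    filter_upwards [h0, hs.continuousAt.eventually (e.open_source.mem_nhds h)] with s k1 k2
    rw [inner_eq he k2, cp_vel he k2 k1, hat_self k2]
  rw [inner_eq he h, hc.cp_cov he h hY, cp_vel he h h0.self_of_nhds, ← hat_self h]
  exact h5.congr_of_eventuallyEq h6

theorem IsLeviCivita.ac_zero (hc : IsLeviCivita cov) {e' : OpenPartialHomeomorph M E}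
    (he : e ∈ maximalAtlas 𝓘(ℝ, E) ∞ M) (he' : e' ∈ maximalAtlas 𝓘(ℝ, E) ∞ M) (h : c t ∈ e.source)
    (h' : c t ∈ e'.source) (hs : ContMDiffAt 𝓘(ℝ, ℝ) 𝓘(ℝ, E) ∞ c t) (h0 : ac e c t = 0) (w : E) :
    chartG e' (e' (c t)) (ac e' c t) w = 0 := by
  have h1 := (hc.pair he h hs (md_cf he' h' w)).unique (hc.pair he' h' hs (md_cf he' h' w))
  rw [h0, cp_cf he' h', map_zero, zero_apply, add_left_inj] at h1
  exact h1.symm

theorem IsLeviCivita.geo (hc : IsLeviCivita cov) (h : IsGeodesic cov c) :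
    P234Z57.IsGeodesic E c := by
  refine ⟨h.1, fun p t ht w => ?_⟩
  have he := chart_mem_maximalAtlas (I := 𝓘(ℝ, E)) (n := ∞) p
  have hu := (chartAt E p).map_source ht
  have h0 := hc.cp_acc (Eventually.of_forall fun s => (h.1 s).mdifferentiableAt (by simp)) (t := t)
  rw [h.2, map_zero] at h0
  have h1 := hc.ac_zero (chart_mem_maximalAtlas _) he (mem_chart_source E _) ht (h.1 t) h0.symm w
  have h2 := (lr he).chris_spec hu (deriv (fun s => chartAt E p (c s)) t)
    (deriv (fun s => chartAt E p (c s)) t) w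
  rw [P210.R2.H53.koszul, ← P210.R2.H53.fderiv_chartMetric he hu,
    ← P210.R2.H53.fderiv_chartMetric he hu] at h2
  rw [ac, map_add, add_apply, eq_div_of_mul_eq two_ne_zero ((mul_comm _ _).trans h2)] at h1
  exact h1

end Vale.Agent.P210Y57
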