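import Vale.Agent.P210Y57.Conv

/-!
# P210: the width bound, with the curvature of the Levi-Civita connection
-/

set_option maxSynthPendingDepth 3

open Bundle Manifold IsManifold
open scoped ContDiff ENNReal

namespace Vale.Agent.P210Y57

section

variable {E : Type} [NormedAddCommGroup E] [NormedSpace ℝ E] [FiniteDimensional ℝ E]
  {M : Type} [MetricSpace M] [ChartedSpace E M] [IsManifold 𝓘(ℝ, E) ∞ M]
  [RiemannianBundle (fun x : M => TangentSpace 𝓘(ℝ, E) x)]
  [IsContMDiffRiemannianBundle 𝓘(ℝ, E) ∞ E (fun x : M => TangentSpace 𝓘(ℝ, E) x)]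
  {cov cov' : Conn E M}

theorem IsLeviCivita.rm_eq (hc : IsLeviCivita cov) (hc' : IsLeviCivita cov') :
    Rm cov' = Rm cov := by
  funext p x y z
  have he := chart_mem_maximalAtlas (I := 𝓘(ℝ, E)) (n := ∞) p
  have h := mem_chart_source E p
  exact cp_inj he h ((hc'.cp_Rm he h x y z).trans (hc.cp_Rm he h x y z).symm)

theorem IsLeviCivita.tensorial (hc : IsLeviCivita cov)
    (X Y Z : Cₛ^∞⟮𝓘(ℝ, E); E, (TangentSpace 𝓘(ℝ, E) : M → Type)⟯) (p : M) :
    curvField cov X Y Z p = Rm cov p (X p) (Y p) (Z p) := by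
  have he := chart_mem_maximalAtlas (I := 𝓘(ℝ, E)) (n := ∞) p
  have h := mem_chart_source E p
  exact cp_inj he h ((hc.cp_curvField he h (X.contMDiff p) (Y.contMDiff p) (Z.contMDiff p)).trans
    (hc.cp_Rm he h _ _ _).symm)

theorem IsLeviCivita.scal_onb (hc : IsLeviCivita cov) (p : M) {ι : Type} [Fintype ι]
    (b : OrthonormalBasis ι ℝ (TangentSpace 𝓘(ℝ, E) p)) :
    scal cov p = ∑ i, ∑ j, inner ℝ (Rm cov p (b i) (b j) (b j)) (b i) := by
  have he := chart_mem_maximalAtlas (I := 𝓘(ℝ, E)) (n := ∞) p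
  have h := mem_chart_source E p
  rw [hc.scal_eq he h (b := fun i => cp (chartAt E p) p (b i)) fun v => ?_]
  · simp only [inner_eq he h, hc.cp_Rm he h, P210B.secG_eq (lr he) ((chartAt E p).map_source h)]
  · have k := congrArg (cp (chartAt E p) p) (b.sum_repr' (cf (chartAt E p) v p))
    simp only [map_sum, map_smul, inner_eq he h, cp_cf he h] at k
    exact k.symm

end

theorem main : ∀ n : ℕ, 3 ≤ n → ∃ C : ℝ,
    ∀ (E : Type) [NormedAddCommGroup E] [NormedSpace ℝ E] [FiniteDimensional ℝ E]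
      (M : Type) [TopologicalSpace M] [T2Space M] [ConnectedSpace M] [ChartedSpace E M]
      [RiemannianBundle (fun x : M => TangentSpace 𝓘(ℝ, E) x)] [IsManifold 𝓘(ℝ, E) ∞ M]
      [IsContMDiffRiemannianBundle 𝓘(ℝ, E) ∞ E (fun x : M => TangentSpace 𝓘(ℝ, E) x)],
      Module.finrank ℝ E = n → (∃ cov : Conn E M, IsLeviCivita cov) ∧
      ∀ cov : Conn E M, IsLeviCivita cov →
        ((∀ cov' : Conn E M, IsLeviCivita cov' → Rm cov' = Rm cov) ∧
          (∀ (X Y Z : Cₛ^∞⟮𝓘(ℝ, E); E, (TangentSpace 𝓘(ℝ, E) : M → Type)⟯) (p : M),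
            curvField cov X Y Z p = Rm cov p (X p) (Y p) (Z p)) ∧
          (∀ (p : M) (b : OrthonormalBasis (Fin n) ℝ (TangentSpace 𝓘(ℝ, E) p)),
            scal cov p = ∑ i, ∑ j, inner ℝ (Rm cov p (b i) (b j) (b j)) (b i)) ∧
          (MetricComplete E M ↔ GeodComplete cov)) ∧
        (MetricComplete E M → (∀ p, 1 ≤ scal cov p) →
          (∃ (V : Type) (K : PreAbstractSimplicialComplex V) (f : M → P210.Realization K),
            (∀ s ∈ K.faces, s.card ≤ n - 2 + 1) ∧ Continuous f ∧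
              ∀ y, diam E (f ⁻¹' {y}) ≤ ENNReal.ofReal C) ∧
          UW E M (n - 2) ≤ ENNReal.ofReal C) := fun n hn => by
  obtain ⟨C, h⟩ := P210Z57.main n hn
  refine ⟨C, fun E _ _ _ M _ _ _ _ _ _ _ hE => ⟨?_, fun cov hc => ?_⟩⟩
  · obtain ⟨cov, hc⟩ := P211W.exists_lc (E := E) (M := M)
    exact ⟨cov, hc.torsion, hc.metric⟩
  let _ : MetricSpace M := P210Z57.met E M
  have : IsRiemannianManifold 𝓘(ℝ, E) M := ⟨fun _ _ => rfl⟩
  refine ⟨⟨fun _ hc' => hc.rm_eq hc', hc.tensorial, fun p b => hc.scal_onb p b, fun k => ?_,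
    fun k => (P210Z57.metricComplete_iff (E := E)).2
      (P210Z57.complete_of_or (E := E) (Or.inr fun x v => ?_))⟩,
    fun h1 h2 => h E M hE (Or.inl h1) (hc.scalGE h2)⟩
  · have := (P210Z57.metricComplete_iff (E := E)).1 k
    exact geodComplete hc
  · obtain ⟨c, k1, k2⟩ := k ⟨x, v⟩
    exact ⟨c, hc.geo k1, k2.symm⟩

end Vale.Agent.P210Y57
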