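import Vale.Agent.P210Y57.St

/-!
# P210: the curvature does not depend on choices
-/

open Bundle Manifold
open scoped ContDiff

namespace Vale.Agent.P210Y57

variable {E : Type} [NormedAddCommGroup E] [NormedSpace ℝ E]
  {M : Type} [TopologicalSpace M] [ChartedSpace E M] [IsManifold 𝓘(ℝ, E) ∞ M]

/-- `X` is a smooth vector field. -/
def SmoothField (X : (q : M) → TangentSpace 𝓘(ℝ, E) q) : Prop :=
  ContMDiff 𝓘(ℝ, E) 𝓘(ℝ, E).tangent ∞ fun q => (⟨q, X q⟩ : TangentBundle 𝓘(ℝ, E) M)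

/-- `∇_X ∇_Y Z - ∇_Y ∇_X Z - ∇_[X,Y] Z = R(X, Y) Z` for all smooth vector fields. -/
def Tensorial (cov : Conn E M) : Prop :=
  ∀ X Y Z, SmoothField X → SmoothField Y → SmoothField Z →
    ∀ p, curvField cov X Y Z p = Rm cov p (X p) (Y p) (Z p)

variable [RiemannianBundle (fun x : M => TangentSpace 𝓘(ℝ, E) x)] [FiniteDimensional ℝ E]

/-- `Scal = ∑ g(R(b_i, b_j) b_j, b_i)` for every orthonormal basis `b`. -/
def FrameFree (cov : Conn E M) : Prop :=
  ∀ (p : M) (k : ℕ) (b : OrthonormalBasis (Fin k) ℝ (TangentSpace 𝓘(ℝ, E) p)),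
    scal cov p = ∑ i, ∑ j, inner ℝ (Rm cov p (b i) (b j) (b j)) (b i)

end Vale.Agent.P210Y57
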