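import Vale.Agent.P210Y57.Main
import Vale.Agent.P210Y57.St2

/-!
# P210: the width bound, short form
-/

set_option maxSynthPendingDepth 3

open Bundle Manifold IsManifold
open scoped ContDiff ENNReal

namespace Vale.Agent.P210Y57

theorem main2 : ∀ n : ℕ, 3 ≤ n → ∃ C : ℝ,
    ∀ (E : Type) [NormedAddCommGroup E] [NormedSpace ℝ E] [FiniteDimensional ℝ E]
      (M : Type) [TopologicalSpace M] [T2Space M] [ConnectedSpace M] [ChartedSpace E M]
      [RiemannianBundle (fun x : M => TangentSpace 𝓘(ℝ, E) x)] [IsManifold 𝓘(ℝ, E) ∞ M]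
      [IsContMDiffRiemannianBundle 𝓘(ℝ, E) ∞ E (fun x : M => TangentSpace 𝓘(ℝ, E) x)],
      Module.finrank ℝ E = n → (∃ cov : Conn E M, IsLeviCivita cov) ∧
      ∀ cov : Conn E M, IsLeviCivita cov →
        ((∀ cov' : Conn E M, IsLeviCivita cov' → Rm cov' = Rm cov) ∧ Tensorial cov ∧
          FrameFree cov ∧ (MetricComplete E M ↔ GeodComplete cov)) ∧
        (MetricComplete E M → (∀ p, 1 ≤ scal cov p) →
          (∃ (V : Type) (K : PreAbstractSimplicialComplex V) (f : M → P210.Realization K),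
            (∀ s ∈ K.faces, s.card ≤ n - 2 + 1) ∧ Continuous f ∧
              ∀ y, diam E (f ⁻¹' {y}) ≤ ENNReal.ofReal C) ∧
          UW E M (n - 2) ≤ ENNReal.ofReal C) := fun n hn => by
  obtain ⟨C, h⟩ := main n hn
  refine ⟨C, fun E _ _ _ M _ _ _ _ _ _ _ hE => ⟨(h E M hE).1, fun cov hc => ?_⟩⟩
  obtain ⟨⟨h1, h2, -, h3⟩, h4⟩ := (h E M hE).2 cov hc
  refine ⟨⟨h1, fun X Y Z hX hY hZ p => h2 ⟨X, hX⟩ ⟨Y, hY⟩ ⟨Z, hZ⟩ p, fun p k b => ?_, h3⟩, h4⟩
  let _ : MetricSpace M := P210Z57.met E M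
  exact hc.scal_onb p b

end Vale.Agent.P210Y57
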