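import Vale.Agent.P210.Defs
import Mathlib.Geometry.Manifold.Riemannian.Basic
import Mathlib.Geometry.Manifold.VectorBundle.CovariantDerivative.Torsion
import Mathlib.Geometry.Manifold.VectorBundle.CovariantDerivative.Metric

/-!
# P210: complete Riemannian manifolds, scalar curvature and Urysohn width
-/

open Bundle Manifold VectorField FiberBundle
open scoped ContDiff ENNReal

namespace Vale.Agent.P210Y57

variable {E : Type} [NormedAddCommGroup E] [NormedSpace ℝ E]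
  {M : Type} [TopologicalSpace M] [ChartedSpace E M]
  [RiemannianBundle (fun x : M => TangentSpace 𝓘(ℝ, E) x)]

variable (E) in
/-- The Riemannian distance `d_g`: the infimum of the lengths of `C¹` paths from `x` to `y`. -/
noncomputable def dg (x y : M) : ℝ≥0∞ := riemannianEDist 𝓘(ℝ, E) x y

variable (E M) in
/-- Every Cauchy sequence of `(M, d_g)` converges. -/
def MetricComplete : Prop :=
  ∀ u : ℕ → M, (∀ ε > 0, ∃ N, ∀ i ≥ N, ∀ j ≥ N, dg E (u i) (u j) < ε) →
    ∃ x, ∀ ε > 0, ∃ N, ∀ i ≥ N, dg E (u i) x < ε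

variable (E) in
/-- The diameter of `S` for `d_g`. -/
noncomputable def diam (S : Set M) : ℝ≥0∞ := ⨆ x ∈ S, ⨆ y ∈ S, dg E x y

variable (E M) in
/-- The Urysohn width `UW_d(M, d_g)`. -/
noncomputable def UW (d : ℕ) : ℝ≥0∞ :=
  ⨅ (V : Type) (K : PreAbstractSimplicialComplex V) (_ : ∀ s ∈ K.faces, s.card ≤ d + 1)
    (f : M → P210.Realization K) (_ : Continuous f), ⨆ y, diam E (f ⁻¹' {y})

variable [FiniteDimensional ℝ E] [IsManifold 𝓘(ℝ, E) ∞ M]

variable (E M) in
/-- Connections on the tangent bundle; `cov Y p v` is `∇_v Y`. -/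
abbrev Conn : Type := CovariantDerivative 𝓘(ℝ, E) E (TangentSpace 𝓘(ℝ, E) : M → Type)

/-- The Levi-Civita connection: torsion free and compatible with the metric. -/
structure IsLeviCivita
    [IsContMDiffRiemannianBundle 𝓘(ℝ, E) ∞ E (fun x : M => TangentSpace 𝓘(ℝ, E) x)]
    (cov : Conn E M) : Prop where
  torsion : cov.torsion = 0
  metric : CovariantDerivative.IsMetricCompatible (V := (TangentSpace 𝓘(ℝ, E) : M → Type)) cov

/-- `∇_X ∇_Y Z - ∇_Y ∇_X Z - ∇_[X,Y] Z` at `p`. -/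
noncomputable def curvField (cov : Conn E M) (X Y Z : (q : M) → TangentSpace 𝓘(ℝ, E) q) (p : M) :
    TangentSpace 𝓘(ℝ, E) p :=
  cov (fun q => cov Z q (Y q)) p (X p) - cov (fun q => cov Z q (X q)) p (Y p) -
    cov Z p (mlieBracket 𝓘(ℝ, E) X Y p)

/-- The curvature tensor `R(x, y) z` at `p` (the vectors are extended to local smooth fields). -/
noncomputable def Rm (cov : Conn E M) (p : M) (x y z : TangentSpace 𝓘(ℝ, E) p) :
    TangentSpace 𝓘(ℝ, E) p :=
  curvField cov (extend E x) (extend E y) (extend E z) p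

variable (E) in
/-- An orthonormal basis `e_i` of the tangent space at `p`. -/
noncomputable def frame (p : M) : OrthonormalBasis
    (Fin (Module.finrank ℝ (TangentSpace 𝓘(ℝ, E) p))) ℝ (TangentSpace 𝓘(ℝ, E) p) :=
  haveI : FiniteDimensional ℝ (TangentSpace 𝓘(ℝ, E) p) := ‹FiniteDimensional ℝ E›
  stdOrthonormalBasis ℝ (TangentSpace 𝓘(ℝ, E) p)

/-- The Ricci tensor `Ric(v, w) = ∑ g(R(e_i, v) w, e_i)`. -/
noncomputable def ric (cov : Conn E M) (p : M) (v w : TangentSpace 𝓘(ℝ, E) p) : ℝ :=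
  ∑ i, inner ℝ (Rm cov p (frame E p i) v w) (frame E p i)

/-- The scalar curvature `∑ Ric(e_j, e_j)`. -/
noncomputable def scal (cov : Conn E M) (p : M) : ℝ :=
  ∑ j, ric cov p (frame E p j) (frame E p j)

omit [RiemannianBundle (fun x : M => TangentSpace 𝓘(ℝ, E) x)] [FiniteDimensional ℝ E]
  [IsManifold 𝓘(ℝ, E) ∞ M] in
variable (E) in
/-- The velocity `c'(t)`. -/
noncomputable def vel (c : ℝ → M) (t : ℝ) : TangentSpace 𝓘(ℝ, E) (c t) :=
  mfderiv 𝓘(ℝ, ℝ) 𝓘(ℝ, E) c t (1 : ℝ)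

/-- The covariant acceleration: for `c' = ∑ v^k ∂_k` in the coordinate frame at `c t`,
`D_t c' = ∑ (v^k)' ∂_k + ∑ v^k ∇_c' ∂_k`. -/
noncomputable def acc (cov : Conn E M) (c : ℝ → M) (t : ℝ) : TangentSpace 𝓘(ℝ, E) (c t) :=
  (trivializationAt E (TangentSpace 𝓘(ℝ, E)) (c t)).symm (c t)
      (deriv (fun s => (trivializationAt E (TangentSpace 𝓘(ℝ, E)) (c t) ⟨c s, vel E c s⟩).2) t)
    + cov (extend E (vel E c t)) (c t) (vel E c t)

/-- A geodesic defined on the whole line: a smooth curve with `D_t c' = 0`. -/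
def IsGeodesic (cov : Conn E M) (c : ℝ → M) : Prop :=
  ContMDiff 𝓘(ℝ, ℝ) 𝓘(ℝ, E) ∞ c ∧ ∀ t, acc cov c t = 0

/-- Every tangent vector is the initial velocity of a geodesic defined on the whole line. -/
def GeodComplete (cov : Conn E M) : Prop :=
  ∀ v : TangentBundle 𝓘(ℝ, E) M, ∃ c : ℝ → M, IsGeodesic cov c ∧ v = ⟨c 0, vel E c 0⟩

end Vale.Agent.P210Y57
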